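import Vale.Agent.KK.PF.Defs
import Vale.Agent.Lib.P064.helper36.CopyCount

/-!
# Embeddings of a rooted forest pattern with all root images prescribed (top-down induction)
-/

namespace Vale.Agent.Lib.P064.PF

open Finset Vale.Agent.KK.PF Vale.Agent.Lib.P064

namespace H55

open Classical in
/-- The maps counted in the generalized statement: injective morphisms of the pattern `o`
into `par` whose root images are prescribed by `ρ` and such that the children of a root `x`
are sent into `s x`. -/
noncomputable def pcSet {V : Type*} [Fintype V] [DecidableEq V] {U : Type} [Fintype U]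
    [DecidableEq U] (par : V → Option V) (o : U → Option U) (ρ : U → V)
    (s : U → Finset V) : Finset (U → V) :=
  univ.filter (fun φ : U → V => Function.Injective φ ∧
    (∀ x y, o x = some y → par (φ x) = some (φ y)) ∧ (∀ x, o x = none → φ x = ρ x) ∧
    (∀ x y, o x = none → o y = some x → φ y ∈ s x))

theorem mem_pcSet {V : Type*} [Fintype V] [DecidableEq V] {U : Type} [Fintype U]
    [DecidableEq U] (par : V → Option V) (o : U → Option U) (ρ : U → V)
    (s : U → Finset V) (φ : U → V) :
    φ ∈ pcSet par o ρ s ↔ Function.Injective φ ∧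
      (∀ x y, o x = some y → par (φ x) = some (φ y)) ∧ (∀ x, o x = none → φ x = ρ x) ∧
      (∀ x y, o x = none → o y = some x → φ y ∈ s x) := by
  unfold pcSet
  rw [mem_filter]
  simp

theorem pc_claim {V : Type*} [Fintype V] [DecidableEq V] (par : V → Option V)
    (a : ℝ) (ha : 0 < a) (Wt : V → ℝ) (hW0 : ∀ v, 0 ≤ Wt v)
    (hsup : ∀ v, CC.Gs a Wt (univ.filter (fun u => par u = some v)) ≤ Wt v)
    {U : Type} [Fintype U] [DecidableEq U] (e : U → ℕ) :
    ∀ (m : ℕ) (o : U → Option U), (∀ x y, o x = some y → e x = e y + 1) →
      (univ.filter (fun x => o x ≠ none)).card = m →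
      ∀ (ρ : U → V) (s : U → Finset V),
        ((pcSet par o ρ s).card : ℝ) ≤
          (1 / a) ^ m * ∏ x ∈ univ.filter (fun x => o x = none), CC.Gs a Wt (s x) := by
  intro m
  induction m with
  | zero =>
    intro o _ hcard ρ s
    have hall : ∀ x, o x = none := by
      intro x
      by_contra hx
      have hmem : x ∈ univ.filter (fun x => o x ≠ none) := mem_filter.2 ⟨mem_univ _, hx⟩
      rw [Finset.card_eq_zero] at hcard
      rw [hcard] at hmem
      exact absurd hmem (Finset.notMem_empty x)
    have hsub : pcSet par o ρ s ⊆ {ρ} := by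
      intro φ hφ
      rw [mem_pcSet] at hφ
      rw [mem_singleton]
      funext x
      exact hφ.2.2.1 x (hall x)
    have h1 : ((pcSet par o ρ s).card : ℝ) ≤ 1 := by
      have := Finset.card_le_card hsub
      rw [Finset.card_singleton] at this
      exact_mod_cast this
    have h2 : (1 : ℝ) ≤ ∏ x ∈ univ.filter (fun x => o x = none), CC.Gs a Wt (s x) := by
      have := Finset.prod_le_prod (s := univ.filter (fun x => o x = none))
        (f := fun _ => (1 : ℝ)) (g := fun x => CC.Gs a Wt (s x))
        (fun _ _ => zero_le_one) (fun x _ => CC.Gs_one_le a ha.le Wt hW0 (s x))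
      simpa using this
    simpa using le_trans h1 h2
  | succ m ih =>
    intro o he hcard ρ s
    have hne : (univ.filter (fun x => o x ≠ none)).Nonempty := by
      rw [← Finset.card_pos, hcard]
      exact Nat.succ_pos m
    obtain ⟨w, hw, hwmin⟩ := Finset.exists_min_image _ e hne
    have hw' : o w ≠ none := (mem_filter.1 hw).2
    obtain ⟨x0, hx0⟩ := Option.ne_none_iff_exists'.1 hw'
    have hew := he w x0 hx0
    have hx0root : o x0 = none := by
      by_contra hx
      have := hwmin x0 (mem_filter.2 ⟨mem_univ _, hx⟩)
      omega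
    have hwx0 : w ≠ x0 := by
      intro h
      rw [h, hx0root] at hx0
      exact absurd hx0 (by simp)
    set o' : U → Option U := Function.update o w none with ho'
    have ho'w : o' w = none := by simp [ho']
    have ho'ne : ∀ x, x ≠ w → o' x = o x := fun x hx => by simp [ho', hx]
    have he' : ∀ x y, o' x = some y → e x = e y + 1 := by
      intro x y hxy
      by_cases hxw : x = w
      · rw [hxw, ho'w] at hxy
        exact absurd hxy (by simp)
      · rw [ho'ne x hxw] at hxy
        exact he x y hxy
    have hnr : univ.filter (fun x => o' x ≠ none) = (univ.filter (fun x => o x ≠ none)).erase w := by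
      ext x
      simp only [mem_filter, mem_univ, true_and, mem_erase]
      by_cases hxw : x = w
      · simp [hxw, ho'w]
      · simp [hxw, ho'ne x hxw]
    have hcard' : (univ.filter (fun x => o' x ≠ none)).card = m := by
      rw [hnr, Finset.card_erase_of_mem hw, hcard]
      rfl
    have hroots : univ.filter (fun x => o' x = none) = insert w (univ.filter (fun x => o x = none)) := by
      ext x
      simp only [mem_filter, mem_univ, true_and, mem_insert]
      by_cases hxw : x = w
      · simp [hxw, ho'w]
      · simp [hxw, ho'ne x hxw]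
    have hwnot : w ∉ univ.filter (fun x => o x = none) := by
      simp [hw']
    have hx0mem : x0 ∈ univ.filter (fun x => o x = none) := by
      simp [hx0root]
    -- the pieces
    set ρz : V → U → V := fun z => Function.update ρ w z with hρz
    set sz : V → U → Finset V := fun z =>
      Function.update (Function.update s x0 ((s x0).erase z)) w
        (univ.filter (fun u => par u = some z)) with hsz
    have hcover : pcSet par o ρ s ⊆ (s x0).biUnion (fun z => pcSet par o' (ρz z) (sz z)) := by
      intro φ hφ
      rw [mem_pcSet] at hφ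
      obtain ⟨hinj, hmor, hpin, hch⟩ := hφ
      rw [mem_biUnion]
      refine ⟨φ w, hch x0 w hx0root hx0, ?_⟩
      rw [mem_pcSet]
      refine ⟨hinj, ?_, ?_, ?_⟩
      · intro x y hxy
        by_cases hxw : x = w
        · rw [hxw, ho'w] at hxy
          exact absurd hxy (by simp)
        · rw [ho'ne x hxw] at hxy
          exact hmor x y hxy
      · intro x hx
        by_cases hxw : x = w
        · simp [hρz, hxw]
        · rw [ho'ne x hxw] at hx
          simp [hρz, hxw, hpin x hx]
      · intro x y hx hy
        have hyw : y ≠ w := by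
          intro h
          rw [h, ho'w] at hy
          exact absurd hy (by simp)
        rw [ho'ne y hyw] at hy
        by_cases hxw : x = w
        · subst hxw
          simp only [hsz, Function.update_self, mem_filter, mem_univ, true_and]
          exact hmor y x hy
        · rw [ho'ne x hxw] at hx
          by_cases hxx0 : x = x0
          · subst hxx0
            simp only [hsz, Function.update_of_ne hxw, Function.update_self, mem_erase]
            exact ⟨fun h => hyw (hinj h), hch x y hx hy⟩
          · simp only [hsz, Function.update_of_ne hxw, Function.update_of_ne hxx0]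
            exact hch x y hx hy
    have hGs0 : ∀ t : Finset V, 0 ≤ CC.Gs a Wt t := fun t =>
      le_trans zero_le_one (CC.Gs_one_le a ha.le Wt hW0 t)
    set Q : ℝ := ∏ x ∈ (univ.filter (fun x => o x = none)).erase x0, CC.Gs a Wt (s x) with hQ
    have hQ0 : 0 ≤ Q := Finset.prod_nonneg fun x _ => hGs0 _
    have hpiece : ∀ z ∈ s x0, ((pcSet par o' (ρz z) (sz z)).card : ℝ) ≤
        (1 / a) ^ m * (Wt z * CC.Gs a Wt ((s x0).erase z) * Q) := by
      intro z _
      have h1 := ih o' he' hcard' (ρz z) (sz z)
      have h2 : ∏ x ∈ univ.filter (fun x => o' x = none), CC.Gs a Wt (sz z x) =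
          CC.Gs a Wt (univ.filter (fun u => par u = some z)) *
            (CC.Gs a Wt ((s x0).erase z) * Q) := by
        rw [hroots, Finset.prod_insert hwnot, ← Finset.mul_prod_erase _ _ hx0mem]
        congr 1
        · simp [hsz]
        · congr 1
          · simp [hsz, Function.update_of_ne hwx0.symm]
          · apply Finset.prod_congr rfl
            intro x hx
            have hxx0 : x ≠ x0 := (mem_erase.1 hx).1
            have hxw : x ≠ w := by
              intro h
              rw [h] at hx
              exact hwnot (mem_erase.1 hx).2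
            simp [hsz, Function.update_of_ne hxw, Function.update_of_ne hxx0]
      rw [h2] at h1
      refine le_trans h1 ?_
      apply mul_le_mul_of_nonneg_left _ (by positivity)
      rw [mul_assoc]
      exact mul_le_mul_of_nonneg_right (hsup z) (mul_nonneg (hGs0 _) hQ0)
    have hstep := CC.Gs_step a ha Wt hW0 (s x0)
    calc ((pcSet par o ρ s).card : ℝ)
        ≤ (((s x0).biUnion (fun z => pcSet par o' (ρz z) (sz z))).card : ℝ) := by
          exact_mod_cast Finset.card_le_card hcover
      _ ≤ ∑ z ∈ s x0, ((pcSet par o' (ρz z) (sz z)).card : ℝ) := by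
          exact_mod_cast Finset.card_biUnion_le
      _ ≤ ∑ z ∈ s x0, (1 / a) ^ m * (Wt z * CC.Gs a Wt ((s x0).erase z) * Q) :=
          Finset.sum_le_sum hpiece
      _ = (1 / a) ^ m * ((∑ z ∈ s x0, Wt z * CC.Gs a Wt ((s x0).erase z)) * Q) := by
          rw [← Finset.mul_sum, Finset.sum_mul]
      _ ≤ (1 / a) ^ m * ((1 / a * CC.Gs a Wt (s x0)) * Q) := by
          apply mul_le_mul_of_nonneg_left _ (by positivity)
          exact mul_le_mul_of_nonneg_right hstep hQ0
      _ = (1 / a) ^ (m + 1) * ∏ x ∈ univ.filter (fun x => o x = none), CC.Gs a Wt (s x) := by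
          rw [← Finset.mul_prod_erase _ _ hx0mem, pow_succ]
          ring

end H55

open H55 in
theorem pinned_count_h55 {V : Type*} [Fintype V] [DecidableEq V] (par : V → Option V)
    (a : ℝ) (ha : 0 < a) (Wt : V → ℝ) (hW0 : ∀ v, 0 ≤ Wt v)
    (hsup : ∀ v, ∑ A ∈ (univ.filter (fun u => par u = some v)).powerset,
        (A.card.factorial : ℝ) * a ^ A.card * ∏ u ∈ A, Wt u ≤ Wt v)
    {U : Type} [Fintype U] [DecidableEq U] (o : U → Option U) (e : U → ℕ)
    (he : ∀ x y, o x = some y → e x = e y + 1) (ρ : U → V) :
    (Nat.card {φ : U → V // Function.Injective φ ∧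
        (∀ x y, o x = some y → par (φ x) = some (φ y)) ∧ ∀ x, o x = none → φ x = ρ x} : ℝ) ≤
      (1 / a) ^ (univ.filter (fun x => o x ≠ none)).card *
        ∏ x ∈ univ.filter (fun x => o x = none), Wt (ρ x) := by
  classical
  have hGs0 : ∀ t : Finset V, 0 ≤ CC.Gs a Wt t := fun t =>
    le_trans zero_le_one (CC.Gs_one_le a ha.le Wt hW0 t)
  have hclaim := pc_claim par a ha Wt hW0 hsup e _ o he rfl ρ
    (fun x => univ.filter (fun u => par u = some (ρ x)))
  have hcard : Nat.card {φ : U → V // Function.Injective φ ∧
      (∀ x y, o x = some y → par (φ x) = some (φ y)) ∧ ∀ x, o x = none → φ x = ρ x} ≤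
      (pcSet par o ρ (fun x => univ.filter (fun u => par u = some (ρ x)))).card := by
    rw [Nat.card_eq_fintype_card, Fintype.card_subtype]
    apply Finset.card_le_card
    intro φ hφ
    rw [mem_filter] at hφ
    obtain ⟨-, hinj, hmor, hpin⟩ := hφ
    rw [mem_pcSet]
    refine ⟨hinj, hmor, hpin, fun x y hx hy => ?_⟩
    rw [mem_filter]
    refine ⟨mem_univ _, ?_⟩
    rw [hmor y x hy, hpin x hx]
  calc (Nat.card {φ : U → V // Function.Injective φ ∧
        (∀ x y, o x = some y → par (φ x) = some (φ y)) ∧ ∀ x, o x = none → φ x = ρ x} : ℝ)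
      ≤ ((pcSet par o ρ (fun x => univ.filter (fun u => par u = some (ρ x)))).card : ℝ) := by
        exact_mod_cast hcard
    _ ≤ _ := hclaim
    _ ≤ (1 / a) ^ (univ.filter (fun x => o x ≠ none)).card *
        ∏ x ∈ univ.filter (fun x => o x = none), Wt (ρ x) := by
        apply mul_le_mul_of_nonneg_left _ (by positivity)
        exact Finset.prod_le_prod (fun x _ => hGs0 _) (fun x _ => hsup (ρ x))

end Vale.Agent.Lib.P064.PF
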